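import Crest.Agent.X212.Lns95.Lv
import Crest.Agent.X212.Line51.Exl

/-!
# X212 / Lin43 (helper43): `LinStmt`, the base connections of the lens model
-/

open scoped Manifold ContDiff Topology
open Set Function Filter

set_option autoImplicit false
set_option linter.unusedSectionVars false

noncomputable section
namespace Crest.Agent.X212.Lin43
open Crest.Agent.R208.F (Ext io)
open Crest.Agent.R208.FI (IsDeg)
open Glue52 (dir)
open Lns95 Dr59 Line51
open Pj41 (FSm MSm PIso)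
open Cyf70 (IC)
open M (Mf Band LBas)

section
variable {E H : Type} [NormedAddCommGroup E] [NormedSpace ℝ E] [FiniteDimensional ℝ E]
  [TopologicalSpace H] {I : ModelWithCorners ℝ E H} {M : Type} [TopologicalSpace M] [ChartedSpace H M]
  [IsManifold I ∞ M] [I.Boundaryless] {f f' u w : M → ℂ} {g : M → Circle} {y : M}

variable (I) in
/-- the form `Im (conj f df)` -/
def mo (f : M → ℂ) : M → Ext E := th I fun y => Matrix.of fun _ _ : Unit => f y

theorem mo_eq : mo I f y = io (lm (f y) ∘ₗ (dc I f y : E →ₗ[ℝ] ℂ)) :=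
  congrArg io (LinearMap.ext fun v => by simp [tl_eq_sum, lm])

theorem mo_congr (h : f =ᶠ[𝓝 y] f') : mo I f y = mo I f' y :=
  th_congr (h.mono fun _ k => by simp only [k])

theorem smAt_mo (h : FSm I f y) : SmAt I (mo I f) y := smAt_th fun _ _ => h

theorem mo_mul (hf : FSm I f y) (hg : CSm I g y) :
    mo I (fun x => f x * g x) y = mo I f y + ‖f y‖ ^ 2 • ang I g y := by
  rw [show ang I g y = mo I (fun x => g x) y from rfl, mo_eq, mo_eq, mo_eq, ← map_smul, ← map_add]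
  refine congrArg io (LinearMap.ext fun v => ?_)
  have := lm_unit (Circle.norm_coe (g y)) (f y) (dc I f y v)
  simp only [LinearMap.comp_apply, ContinuousLinearMap.coe_coe, LinearMap.add_apply,
    LinearMap.smul_apply, dc_mul hf (Rod53.cm_coe hg), map_add, this, nsq]
  simp [lm_apply]; ring

theorem mo_dir (hf : FSm I f y) (h0 : f y ≠ 0) :
    mo I f y = ‖f y‖ ^ 2 • ang I (fun x => dir (f x)) y := by
  have s := Rod53.cm_norm hf h0
  have := mo_mul (f := fun x => (‖f x‖ : ℂ))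
    (Complex.ofRealCLM.contDiff.contDiffAt.comp_contMDiffAt s) (Rod53.cm_dir hf h0)
  simp only [Glue52.norm_mul_dir] at this
  rw [this, mo_eq, show lm _ ∘ₗ _ = 0 from LinearMap.ext fun v => by
    simp [dc_ofReal s, lm_apply]]
  simp

theorem al_eq (ψ q : ℝ → ℝ) :
    al I ψ q u w y = ψ (‖w y‖ ^ 2) • mo I u y + q (‖w y‖ ^ 2) • mo I w y := by
  rw [al, mo_eq, mo_eq, map_add, map_smul, map_smul]

variable {n : ℕ} (P : Prf n) (μ : ℝ)

theorem smAt_al (hu : FSm I u y) (hw : FSm I w y) : SmAt I (P.al I μ u w) y := by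
  have s : FSm I (fun x => P.p3 (‖w x‖ ^ 2)) y :=
    (P.s3 _ (sq_nonneg _)).comp_contMDiffAt (f := fun x => ‖w x‖ ^ 2) (Rod53.cm_nsq hw)
  exact (((smAt_mo hu).fsmul le_rfl (g := fun x => μ * (n + ‖w x‖ ^ 2 * P.p3 (‖w x‖ ^ 2)))
    (FSm.mul' contMDiffAt_const (contMDiffAt_const.add (FSm.mul' (Rod53.cm_nsq hw) s)))).add
    ((smAt_mo hw).fsmul le_rfl (g := fun x => μ * P.p3 (‖w x‖ ^ 2) * (n : ℝ)⁻¹)
      (FSm.mul' (FSm.mul' contMDiffAt_const s) contMDiffAt_const))).congr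
    (Eventually.of_forall fun x => al_eq ..)

/-- the potential where the profile is flat -/
theorem al_flat (hn : n ≠ 0) (hw : FSm I w y) (h0 : w y ≠ 0) (h : P.f1 (‖w y‖ ^ 2) = 0) :
    P.al I μ u w y = -μ • ang I (fun x => dir (w x)) y := by
  have p : 0 < ‖w y‖ ^ 2 := by positivity
  rw [P.ef1 _ p] at h
  rw [Prf.al, al_eq, h, mo_dir hw h0, mul_zero, zero_smul, zero_add, smul_smul]
  congr 1
  field_simp
  linear_combination μ * h

theorem th_sc {κ : Type} [Fintype κ] {s t : M → Matrix κ Unit ℂ} {p : Matrix κ κ ℂ} (hs : MSm I s y)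
    (hp : PIso (s y) 1 p) (hg : CSm I g y) (k : ℤ)
    (e : ∀ᶠ x in 𝓝 y, t x = s x * sc (fun x => g x ^ k) x) :
    th I t y = th I s y + (k : ℝ) • ang I g y := by
  rw [th_congr e, ← ang_zpow hg]
  exact th_trans (msm_sc (hg.zpow k)) hs (piso_sc _ _) hp

/-- the change of charts -/
theorem al_chg {o : M → Ext E} {N : Set M} (D : Dsc I o n N) (hn : n ≠ 0)
    (hy : y ∈ D.O false ∩ D.O true) : P.al I μ (D.u true) (D.w true) y =
      P.al I μ (D.u false) (D.w false) y + -(μ * n) • ang I (fun x => dir (D.u false x)) y := by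
  have nb := ((D.ch false).op.inter (D.ch true).op).mem_nhds hy
  have su := (D.ch false).su y hy.1
  have c := Rod53.cm_dir su (D.ne false y hy)
  have e1 : ang I (fun x => dir (D.u true x)) y = _ :=
    (ang_congr (eventually_of_mem nb D.du)).trans (ang_inv c)
  have e2 := (mo_congr (eventually_of_mem nb D.tw)).trans
    (mo_mul ((D.ch false).sw y hy.1) (CSm.pow c n))
  have e3 : ‖D.u true y‖ ^ 2 = 1 - ‖D.u false y‖ ^ 2 := eq_sub_of_add_eq' (D.nrm y hy)
  rw [Prf.al, al_eq, al_eq, D.nw hy, e2, mo_dir su (D.ne false y hy),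
    mo_dir ((D.ch true).su y hy.2) (D.ne true y hy), e1, e3,
    show ang I (fun x => dir (D.u false x) ^ n) y = _ from ang_pow c n]
  match_scalars <;> field_simp <;> ring

end

section
variable {X : Mf 4} {o : X.M → Ext X.E} {n : ℕ} {B : Band X} {κ : Type} [Fintype κ]
  {e : κ → Met55.VF B.Y.I B.Y.M} {L : LB X o n B e} {lam : Type} [Fintype lam]
  {p : X.M → Matrix lam lam ℂ} {k : ℤ} {nA : B.Y.M × ℝ → Ext (B.Y.E × ℝ)}
  (S : LD B.Y.I L.D p k B.j nA) {b : Bool} {y : X.M} {q : B.Y.M × ℝ}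

/-- the connection in a chart -/
def cA (b : Bool) : X.M → Ext X.E := L.P.al X.I (-k / n) (L.D.u b) (L.D.w b) - th X.I (S.s b)

variable (B nA) in
/-- the connection near the other side -/
def nB : X.M → Ext X.E := cb B • pm X.I (IC B.Y.I) (ji B) nA

open Classical in
/-- the connection -/
def cn (y : X.M) : Ext X.E :=
  if y ∈ L.D.O false then cA S false y else if y ∈ L.D.O true then cA S true y else nB B nA y

theorem cn_O (hy : y ∈ L.D.O b) : cn S y = cA S b y := by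
  cases b
  · exact if_pos hy
  by_cases h : y ∈ L.D.O false
  · have c := Rod53.cm_dir ((L.D.ch false).su y h) (L.D.ne false y ⟨h, hy⟩)
    have := L.n0
    rw [cn, if_pos h, cA, cA, Pi.sub_apply, Pi.sub_apply, al_chg _ _ L.D L.n0 ⟨h, hy⟩,
      th_sc ((S.uni false).sm y h) ((S.uni false).iso y h) c k
        (eventually_of_mem (((L.D.ch false).op.inter (L.D.ch true).op).mem_nhds ⟨h, hy⟩) S.tr),
      show -(-(k : ℝ) / n * n) = k by field_simp]
    abel
  · exact (if_neg h).trans (if_pos hy)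

theorem cn_off (hy : y ∉ B.wall.sd false) : cn S y = nB B nA y :=
  (if_neg fun h => hy (L.D.sub _ h)).trans (if_neg fun h => hy (L.D.sub _ h))

theorem w_ne (h : B.j q ∈ L.D.O b) : L.D.w b (B.j q) ≠ 0 := fun k => by
  have := (L.band.pos _).trans_le (L.band.hi b q h)
  simp [k] at this

theorem al_j (h : B.j q ∈ L.D.O b) (μ : ℝ) : L.P.al X.I μ (L.D.u b) (L.D.w b) (B.j q) =
    -μ • ang X.I (fun x => dir (L.D.w b x)) (B.j q) :=
  al_flat _ _ L.n0 ((L.D.ch b).sw _ h) (w_ne h) (L.fl _ _ (L.band.hi b q h)).2.1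

theorem neg_of (h : B.j q ∈ B.wall.sd false) : q.2 < 0 := by simpa [M.pm] using B.j_mem_sd.1 h

theorem pm_cn (h1 : -3 < q.2) (h2 : q.2 ≤ 1) : pm (IC B.Y.I) X.I B.j (cn S) q = nA q := by
  by_cases h : B.j q ∈ B.wall.sd false
  · obtain ⟨b, hb⟩ := (L.D.cov _).1 h
    have d := (B.oe.contMDiff q).mdifferentiableAt ne0
    rw [pm_apply, cn_O S hb, cA, Pi.sub_apply, al_j hb, map_sub, map_smul, ← pm_apply, ← pm_apply,
      pm_th ((S.uni b).sm _ hb) d, pm_ang (Rod53.cm_dir ((L.D.ch b).sw _ hb) (w_ne hb)) d, neg_div,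
      neg_neg]
    exact sub_eq_of_eq_add' (S.band b q ⟨h1, neg_of h⟩ hb).symm
  · have : 0 ≤ q.2 := by simpa [M.pm] using mt B.j_mem_sd.2 h
    rw [← pm_j_ji B nA q]
    refine pm_congr_right ((cn_off S h).trans ?_)
    rw [nB, Pi.smul_apply', cb_j, M.chi_eq_one (abs_le.2 ⟨by linarith, h2⟩), one_smul]

theorem cn_slab (hy : y ∈ B.slab (Ioo (-1) 1)) : cn S y = nB B nA y := by
  obtain ⟨q, h, rfl⟩ := hy
  rw [nB, Pi.smul_apply', cb_j, M.chi_eq_one (abs_lt.2 h.2).le, one_smul,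
    pm_congr_right (b := pm (IC B.Y.I) X.I B.j (cn S))
      (by rw [ji_j, pm_cn S (by linarith [h.2.1]) h.2.2.le]), pm_comp
      (by rw [ji_j]; exact (B.oe.contMDiff q).mdifferentiableAt ne0)
      ((cm_ji B q).mdifferentiableAt ne0)]
  refine (pm_of_eventually_id (eventually_of_mem (B.oe.isOpen_range.mem_nhds ⟨q, rfl⟩) ?_) _).symm
  rintro _ ⟨z, rfl⟩
  exact congrArg B.j (ji_j B z)

theorem sm_cn (h : Sm (IC B.Y.I) (univ ×ˢ Ioo (-3) 3) nA) (y : X.M) : SmAt X.I (cn S) y := by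
  by_cases hy : y ∈ B.wall.sd false
  · obtain ⟨b, hb⟩ := (L.D.cov _).1 hy
    exact ((smAt_al _ _ ((L.D.ch b).su _ hb) ((L.D.ch b).sw _ hb)).sub
      (smAt_th ((S.uni b).sm _ hb))).congr
      (eventually_of_mem ((L.D.ch b).op.mem_nhds hb) fun _ => cn_O S)
  refine CAt.congr (a := nB B nA) ((em (y ∈ B.slab (Icc (-2) 2))).elim
    (fun k => (h.pm (mp_ji _ _) y (slab23 _ k)).fsmul le_rfl (fsm_cb B y)) fun k =>
      cAt_zero.congr ((cb_ev _ k).mono fun z j => by rw [nB, Pi.smul_apply', j, zero_smul]; rfl)) ?_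
  rcases B.wall.mem_cases false y with k | k | k
  · exact absurd k hy
  · exact eventually_of_mem ((B.isOpen_slab isOpen_Ioo).mem_nhds
      (B.slab_mono (by simp) (B.slab_zero ▸ k))) fun _ => cn_slab S
  · exact eventually_of_mem ((B.wall.op_sd _).mem_nhds k) fun _ j =>
      cn_off S (disjoint_left.1 B.wall.dj j)

theorem dg_cn (h : Dg 1 univ nA) : Dg 1 univ (cn S) := fun y _ => by
  have a : ∀ b, IsDeg 1 (cA S b y) := fun b =>
    Dg.sub (U := univ) (fun _ _ => isDeg_io _) (dg_th _) y trivial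
  rw [cn]
  split_ifs
  exacts [a _, a _, (h.pm (mapsTo_univ _ univ)).fsmul _ y trivial]

end

/-- LIN -/
theorem linStmt : LinStmt := fun X o n B κ _ e L lam _ p k nA S h1 h2 => by
  refine ⟨fun σ => ⟨fun _ => cn (S.S σ), fun _ y _ => sm_cn _ h1 y, fun _ => dg_cn _ h2,
    fun _ y _ => j1_fixed (sm_cn _ h1 y) (Eventually.of_forall fun z => dg_cn _ h2 z trivial)⟩,
    fun _ _ => rfl, fun σ b => ⟨(S.S σ).uni b, fun y hy => ?_⟩, fun σ q => pm_cn _, fun y hy => ?_⟩
  · exact (congrArg _ (cn_O _ hy)).trans (add_sub_cancel (th X.I _ y) _)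
  show cn _ y = cn _ y
  by_cases h : y ∈ B.wall.sd false
  · obtain ⟨q, rfl⟩ := hy.resolve_left fun j => disjoint_left.1 B.wall.dj j h
    obtain ⟨b, hb⟩ := (L.D.cov _).1 h
    have := L.n0
    rw [cn_O _ hb, cn_O _ hb, cA, cA, Pi.sub_apply, Pi.sub_apply, al_j hb, al_j hb,
      th_sc (((S.S false).uni b).sm _ hb) (((S.S false).uni b).iso _ hb)
        (Rod53.cm_dir ((L.D.ch b).sw _ hb) (w_ne hb)) S.i (t := (S.S true).s b), S.hk]
    · match_scalars <;> field_simp <;> ring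
    · filter_upwards [(L.D.ch b).op.mem_nhds hb, B.oe.isOpen_range.mem_nhds ⟨q, rfl⟩]
      rintro _ a ⟨z, rfl⟩
      exact S.rel b z (neg_of (L.D.sub b a)) a
  · rw [cn_off _ h, cn_off _ h]

end Crest.Agent.X212.Lin43
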